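import Vale.Agent.P272.K.Stmt
import Mathlib.Analysis.Calculus.DifferentialForm.Basic
import Mathlib.Geometry.Manifold.MFDeriv.Basic

/-!
# P267: surfaces of class VII, statement of the main theorem

`X` is a compact connected complex surface: a compact connected Hausdorff space with an atlas of
charts in `ℂ² = Fin 2 → ℂ` with holomorphic changes of charts (`IsManifold 𝓘(ℂ, Cm 2) ω X`).
Taken from `Vale.Agent.P272.K.Stmt`: `Cm n = Fin n → ℂ`; `At e x` says that `e` is a chart of the
atlas defined at `x`; `jacM e e' x` is the Jacobian matrix at `x` of the change of charts from `e`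
to `e'`; `cHess u z` is the matrix `∂²u/∂z_j∂z̄_k (z)`; `IsIntegral D I` says that `I` is the integral
over `X` of the form of top degree with density `D e` in the chart `e`.
-/

open scoped Manifold ContDiff Topology
open Vale.Agent.P272.K

noncomputable section

namespace Vale.Agent.P267

/-! ### real differential forms and Betti numbers -/

section Forms

variable {X : Type*} [TopologicalSpace X] [ChartedSpace (Cm 2) X]

/-- A (not necessarily smooth) real `k`-form on `X`: an alternating `ℝ`-multilinear form on every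
tangent space. -/
abbrev RForm (k : ℕ) (X : Type*) [TopologicalSpace X] [ChartedSpace (Cm 2) X] :=
  ∀ x : X, TangentSpace 𝓘(ℝ, Cm 2) x [⋀^Fin k]→L[ℝ] ℝ

/-- The pullback of the form `a` by a map `f : ℂ² → X`. For `f = e.symm`, the inverse of a chart `e`,
it is the coordinate expression of `a` in the chart `e`. -/
def pullForm {k : ℕ} (f : Cm 2 → X) (a : RForm k X) : Cm 2 → Cm 2 [⋀^Fin k]→L[ℝ] ℝ :=
  fun z => (a (f z)).compContinuousLinearMap (mfderiv 𝓘(ℝ, Cm 2) 𝓘(ℝ, Cm 2) f z)

/-- A form is smooth if its expression in every chart of the atlas is smooth. -/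
def SmoothForm {k : ℕ} (a : RForm k X) : Prop :=
  ∀ e ∈ atlas (Cm 2) X, ContDiffOn ℝ ∞ (pullForm e.symm a) e.target

/-- `a` is the exterior derivative of `b`. -/
def IsExtDeriv {k : ℕ} (b : RForm k X) (a : RForm (k + 1) X) : Prop :=
  ∀ e ∈ atlas (Cm 2) X, ∀ z ∈ e.target, extDeriv (pullForm e.symm b) z = pullForm e.symm a z

/-- A form is closed if its exterior derivative vanishes. -/
def ClosedForm {k : ℕ} (a : RForm k X) : Prop := IsExtDeriv a 0

/-- A form of degree `k + 1` is exact if it is the exterior derivative of a smooth `k`-form. -/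
def ExactForm {k : ℕ} (a : RForm (k + 1) X) : Prop := ∃ b : RForm k X, SmoothForm b ∧ IsExtDeriv b a

end Forms

/-- The Betti number `b_{k+1}(X)` is `n`: there are `n` closed smooth `(k+1)`-forms such that every
closed smooth `(k+1)`-form is, with unique coefficients, a real linear combination of them up to an
exact form (so the de Rham cohomology group of degree `k + 1` has dimension `n`). -/
def BettiSucc (X : Type*) [TopologicalSpace X] [ChartedSpace (Cm 2) X] (k n : ℕ) : Prop :=
  ∃ a : Fin n → RForm (k + 1) X, (∀ i, SmoothForm (a i) ∧ ClosedForm (a i)) ∧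
    ∀ c : RForm (k + 1) X, SmoothForm c → ClosedForm c →
      ∃! t : Fin n → ℝ, ExactForm (c - ∑ i, t i • a i)

/-! ### pluricanonical sections -/

/-- A holomorphic section of the `m`-th power of the canonical bundle of `X`, given by its
coefficients in the charts: in the chart `e` it is `coeff e (z) (dz₁ ∧ dz₂)^m`. -/
structure PluriForm (m : ℕ) (X : Type*) [TopologicalSpace X] [ChartedSpace (Cm 2) X] where
  coeff : Chart 2 X → Cm 2 → ℂ
  holo : ∀ e ∈ atlas (Cm 2) X, DifferentiableOn ℂ (coeff e) e.target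
  change : ∀ (e e' : Chart 2 X) (x : X), At e x → At e' x →
    coeff e (e x) = coeff e' (e' x) * (jacM e e' x).det ^ m

/-- The Kodaira dimension of `X` is `-∞`: all plurigenera vanish. -/
def KodairaNegInf (X : Type*) [TopologicalSpace X] [ChartedSpace (Cm 2) X] : Prop :=
  ∀ m : ℕ, 1 ≤ m → ∀ s : PluriForm m X, ∀ e ∈ atlas (Cm 2) X, ∀ z ∈ e.target, s.coeff e z = 0

/-! ### rational curves -/

/-- A holomorphic map from the projective line `ℙ¹ = ℂ ∪ {∞}` to `X`: `f₀` is its restriction to
`ℂ`, `f₁` its restriction to the coordinate plane `w = 1/z` at infinity. -/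
structure P1Map (X : Type*) [TopologicalSpace X] [ChartedSpace (Cm 2) X] where
  f₀ : ℂ → X
  f₁ : ℂ → X
  holo₀ : MDifferentiable 𝓘(ℂ) 𝓘(ℂ, Cm 2) f₀
  holo₁ : MDifferentiable 𝓘(ℂ) 𝓘(ℂ, Cm 2) f₁
  glue : ∀ z : ℂ, z ≠ 0 → f₀ z = f₁ z⁻¹

section Curves

variable {X : Type*} [TopologicalSpace X] [ChartedSpace (Cm 2) X]

/-- The image of `ℙ¹`. -/
def P1Map.image (φ : P1Map X) : Set X := Set.range φ.f₀ ∪ {φ.f₁ 0}

/-- A rational curve in `X`: the image of a nonconstant holomorphic map `ℙ¹ → X` (equivalently, an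
irreducible compact curve whose normalisation is `ℙ¹`). -/
def IsRationalCurve (C : Set X) : Prop :=
  ∃ φ : P1Map X, (∃ z w, φ.f₀ z ≠ φ.f₀ w) ∧ C = φ.image

/-! ### effective divisors -/

end Curves

/-- An effective divisor on `X`, given by local equations: near each point `x` (on the open set
`U x ∋ x`) it is the divisor of the holomorphic function `f x`, which does not vanish identically
near any point, and two of these functions differ by a holomorphic factor without zeros. -/
structure EffDiv (X : Type*) [TopologicalSpace X] [ChartedSpace (Cm 2) X] where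
  U : X → Set X
  f : X → X → ℂ
  isOpen : ∀ x, IsOpen (U x)
  mem : ∀ x, x ∈ U x
  holo : ∀ x, MDifferentiableOn 𝓘(ℂ, Cm 2) 𝓘(ℂ) (f x) (U x)
  ne : ∀ x, ∀ y ∈ U x, ∃ᶠ z in 𝓝 y, f x z ≠ 0
  change : ∀ x x', ∃ g : X → ℂ, MDifferentiableOn 𝓘(ℂ, Cm 2) 𝓘(ℂ) g (U x ∩ U x') ∧
    ∀ y ∈ U x ∩ U x', g y ≠ 0 ∧ f x y = g y * f x' y

section Divisors

variable {X : Type*} [TopologicalSpace X] [ChartedSpace (Cm 2) X]

/-- The support of an effective divisor. The divisor is nonzero iff its support is not empty. -/
def EffDiv.supp (D : EffDiv X) : Set X := {x | D.f x x = 0}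

/-- A smooth Hermitian metric on the line bundle `𝒪(D)`: positive weights `h x` on `U x` such that
the functions `|f x|² h x` (the squared norm of the canonical section) agree on the overlaps. -/
structure EffDiv.IsMetric (D : EffDiv X) (h : X → X → ℝ) : Prop where
  smooth : ∀ x, ∀ y ∈ D.U x, ∀ e : Chart 2 X, At e y →
    ContDiffAt ℝ ∞ (fun z => h x (e.symm z)) (e y)
  pos : ∀ x, ∀ y ∈ D.U x, 0 < h x y
  change : ∀ x x', ∀ y ∈ D.U x ∩ D.U x', ‖D.f x y‖ ^ 2 * h x y = ‖D.f x' y‖ ^ 2 * h x' y

/-- The self-intersection number `D²` is `d`: it is the integral over `X` of `c₁ ∧ c₁` for the first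
Chern form `c₁ = -(i/2π) ∂∂̄ log h` of a smooth Hermitian metric `h` of `𝒪(D)`; in a chart
`c₁ ∧ c₁` is `(2/π²) det(∂² log h/∂z_j∂z̄_k)` times Lebesgue measure. -/
def EffDiv.SelfInt (D : EffDiv X) (d : ℝ) : Prop :=
  ∃ h : X → X → ℝ, D.IsMetric h ∧ IsIntegral (X := X) (fun (e : Chart 2 X) (z : Cm 2) =>
    2 / Real.pi ^ 2 * (cHess (fun w => Real.log (h (e.symm z) (e.symm w))) z).det.re) d

/-- `D` is a smooth rational curve: its local equations have nonzero differential at their zeros,
and its support is the image of an injective holomorphic map `ℙ¹ → X`. -/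
def EffDiv.IsSmoothRational (D : EffDiv X) : Prop :=
  (∀ x, ∀ y ∈ D.U x, D.f x y = 0 → mfderiv 𝓘(ℂ, Cm 2) 𝓘(ℂ) (D.f x) y ≠ 0) ∧
    ∃ φ : P1Map X, Function.Injective φ.f₀ ∧ φ.f₁ 0 ∉ Set.range φ.f₀ ∧ D.supp = φ.image

end Divisors

/-- `X` is minimal: it contains no smooth rational curve of self-intersection number `-1`. -/
def Minimal (X : Type*) [TopologicalSpace X] [ChartedSpace (Cm 2) X] : Prop :=
  ¬ ∃ D : EffDiv X, D.IsSmoothRational ∧ D.SelfInt (-1)

/-! ### global spherical shells -/

/-- `X` contains a global spherical shell: an open subset which is biholomorphic (by `F`, with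
inverse `G`) to an open neighbourhood `U` of the unit sphere `S³` in `ℂ² \ {0}` and whose complement
in `X` is connected. -/
def HasGSS (X : Type*) [TopologicalSpace X] [ChartedSpace (Cm 2) X] : Prop :=
  ∃ (U : Set (Cm 2)) (F : Cm 2 → X) (G : X → Cm 2), IsOpen U ∧ (0 : Cm 2) ∉ U ∧
    {z : Cm 2 | ‖z 0‖ ^ 2 + ‖z 1‖ ^ 2 = 1} ⊆ U ∧ IsOpen (F '' U) ∧
    MDifferentiableOn 𝓘(ℂ, Cm 2) 𝓘(ℂ, Cm 2) F U ∧
    MDifferentiableOn 𝓘(ℂ, Cm 2) 𝓘(ℂ, Cm 2) G (F '' U) ∧ (∀ z ∈ U, G (F z) = z) ∧
    IsConnected (F '' U)ᶜ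

/-- The hypotheses: `X` is a minimal compact connected complex surface of class VII (i.e.
`b₁(X) = 1` and `κ(X) = -∞`) with `b₂(X) = n > 0`. -/
structure IsMinimalVII (X : Type*) [TopologicalSpace X] [ChartedSpace (Cm 2) X] (n : ℕ) : Prop where
  b1 : BettiSucc X 0 1
  b2 : BettiSucc X 1 n
  pos : 0 < n
  kod : KodairaNegInf X
  min : Minimal X

/-- **Main statement.** A minimal surface `X` of class VII with `b₂(X) = n > 0` contains a nonzero
effective divisor of self-intersection number `0`, or it contains `n` distinct rational curves. -/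
def MainStatement : Prop :=
  ∀ (X : Type) [TopologicalSpace X] [T2Space X] [CompactSpace X] [ConnectedSpace X]
    [ChartedSpace (Cm 2) X] [IsManifold 𝓘(ℂ, Cm 2) ω X] (n : ℕ), IsMinimalVII X n →
    (∃ D : EffDiv X, D.supp.Nonempty ∧ D.SelfInt 0) ∨
      ∃ C : Fin n → Set X, Function.Injective C ∧ ∀ i, IsRationalCurve (C i)

/-- Stronger version, without the exception: a minimal surface `X` of class VII with
`b₂(X) = n > 0` contains `n` distinct rational curves. -/
def CurvesStatement : Prop :=
  ∀ (X : Type) [TopologicalSpace X] [T2Space X] [CompactSpace X] [ConnectedSpace X]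
    [ChartedSpace (Cm 2) X] [IsManifold 𝓘(ℂ, Cm 2) ω X] (n : ℕ), IsMinimalVII X n →
      ∃ C : Fin n → Set X, Function.Injective C ∧ ∀ i, IsRationalCurve (C i)

/-- The global spherical shell conjecture outside the case settled by Enoki (1981): a minimal
surface `X` of class VII with `b₂(X) > 0` contains a nonzero effective divisor of self-intersection
number `0`, or it contains a global spherical shell. -/
def ShellStatement : Prop :=
  ∀ (X : Type) [TopologicalSpace X] [T2Space X] [CompactSpace X] [ConnectedSpace X]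
    [ChartedSpace (Cm 2) X] [IsManifold 𝓘(ℂ, Cm 2) ω X] (n : ℕ), IsMinimalVII X n →
    (∃ D : EffDiv X, D.supp.Nonempty ∧ D.SelfInt 0) ∨ HasGSS X

/-- The global spherical shell conjecture. -/
def GSSConjecture : Prop :=
  ∀ (X : Type) [TopologicalSpace X] [T2Space X] [CompactSpace X] [ConnectedSpace X]
    [ChartedSpace (Cm 2) X] [IsManifold 𝓘(ℂ, Cm 2) ω X] (n : ℕ), IsMinimalVII X n → HasGSS X

end Vale.Agent.P267
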